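import Vale.Agent.P182G10.Ext

/-!
# P182G: the half-spin weights and the weights of the exterior powers
-/

namespace Vale.Agent.P182G10

open Vale.Agent.P182G CliffordAlgebra QuadraticMap

variable {n : ℕ}

/-- Basis vectors in the Clifford algebra. -/
noncomputable abbrev cb (k : Fin n ⊕ Fin n) : Cl n := ι (Qs n) (bv k)

theorem cb_sq (k : Fin n ⊕ Fin n) : cb k * cb k = 0 := by
  rw [ι_sq_scalar, q_bv (Q := Qs n) split_apply, map_zero]

theorem cb_anti {k l : Fin n ⊕ Fin n} (h : k.swap ≠ l) : cb k * cb l = -(cb l * cb k) := by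
  refine anti ?_
  rw [polar_bv (Q := Qs n) split_apply]
  exact Pi.single_eq_of_ne h _

theorem cb_one (k : Fin n ⊕ Fin n) : cb k.swap * cb k + cb k * cb k.swap = 1 := by
  rw [ι_mul_ι_add_swap, polar_bv (Q := Qs n) split_apply]
  simp

/-- Monomials. -/
noncomputable def mon (L : List (Fin n ⊕ Fin n)) : Cl n := (L.map cb).prod

theorem mon_cons (l : Fin n ⊕ Fin n) (L : List (Fin n ⊕ Fin n)) : mon (l :: L) = cb l * mon L := by
  simp [mon]

theorem cb_mon {k : Fin n ⊕ Fin n} {L : List (Fin n ⊕ Fin n)} (h : k.swap ∉ L) :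
    cb k * mon L = (-1 : ℂ) ^ L.length • (mon L * cb k) := by
  induction L with
  | nil => simp [mon]
  | cons l L ih =>
    rw [List.mem_cons, not_or] at h
    rw [mon_cons, ← mul_assoc, cb_anti h.1, neg_mul, mul_assoc, ih h.2, List.length_cons,
      pow_succ, mul_smul_comm, mul_assoc]
    simp

theorem cb_kill {k : Fin n ⊕ Fin n} {L : List (Fin n ⊕ Fin n)} (h : k.swap ∉ L) (hk : k ∈ L) :
    cb k * mon L = 0 := by
  induction L with
  | nil => simp at hk
  | cons l L ih =>
    rw [List.mem_cons, not_or] at h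
    rw [mon_cons, ← mul_assoc]
    rcases List.mem_cons.mp hk with rfl | hk
    · rw [cb_sq, zero_mul]
    · rw [cb_anti h.1, neg_mul, mul_assoc, ih h.2 hk, mul_zero, neg_zero]

theorem kill_cb {k : Fin n ⊕ Fin n} {L : List (Fin n ⊕ Fin n)} (h : k.swap ∉ L) (hk : k ∈ L) :
    mon L * cb k = 0 := by
  have := cb_mon h
  rw [cb_kill h hk] at this
  exact (smul_eq_zero.mp this.symm).resolve_left (pow_ne_zero _ (by norm_num))

theorem mon_ne {L : List (Fin n ⊕ Fin n)} (h : L.Nodup) : mon L ≠ 0 := by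
  induction L with
  | nil => simp [mon]
  | cons l L ih =>
    rw [List.nodup_cons] at h
    rw [mon_cons]
    intro h0
    have h1 : l.swap.swap ∉ L := by rw [Sum.swap_swap]; exact h.1
    apply ih h.2
    rw [← one_mul (mon L), ← cb_one l, add_mul, mul_assoc, h0, mul_assoc, cb_mon h1, mul_smul_comm,
      ← mul_assoc (cb l), h0]
    simp

theorem pair_comm {k l : Fin n ⊕ Fin n} {L : List (Fin n ⊕ Fin n)} (hk : k.swap ∉ L)
    (hl : l.swap ∉ L) : cb k * cb l * mon L = mon L * (cb k * cb l) := by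
  rw [mul_assoc, cb_mon hl, mul_smul_comm, ← mul_assoc, cb_mon hk, smul_mul_assoc, smul_smul,
    ← mul_pow, mul_assoc]
  simp

theorem tor_coe (i : Fin n) (s : ℂˣ) : (tor i s : Cl n) =
    (s : ℂ) • (cb (Sum.inl i) * cb (Sum.inr i)) +
      ((s⁻¹ : ℂˣ) : ℂ) • (cb (Sum.inr i) * cb (Sum.inl i)) := rfl

theorem left_of {k : Fin n ⊕ Fin n} {v : Cl n} (h : cb k * v = 0) :
    cb k * cb k.swap * v = v ∧ cb k.swap * cb k * v = 0 := by
  have h2 : cb k.swap * cb k * v = 0 := by rw [mul_assoc, h, mul_zero]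
  refine ⟨?_, h2⟩
  conv_rhs => rw [← one_mul v, ← cb_one k, add_mul, h2, zero_add]

theorem right_of {k : Fin n ⊕ Fin n} {v : Cl n} (h : v * cb k = 0) :
    v * (cb k.swap * cb k) = v ∧ v * (cb k * cb k.swap) = 0 := by
  have h2 : v * (cb k * cb k.swap) = 0 := by rw [← mul_assoc, h, zero_mul]
  refine ⟨?_, h2⟩
  conv_rhs => rw [← mul_one v, ← cb_one k, mul_add, h2, add_zero]

/-- Left multiplication. -/
noncomputable def lm (n : ℕ) : Representation ℂ (Spin n) (Cl n) where
  toFun g := LinearMap.mulLeft ℂ (g : Cl n)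
  map_one' := by ext x; simp
  map_mul' g h := by ext x; simp

theorem lm_apply (g : Spin n) (x : Cl n) : lm n g x = (g : Cl n) * x := rfl

theorem root_kill {i : Fin n} {l : Fin n ⊕ Fin n} {v : Cl n} (hl : Sum.inr i ≠ l)
    (h : cb (Sum.inl i) * v = 0) (t : ℂ) : (1 + t • (cb (Sum.inl i) * cb l)) * v = v := by
  rw [cb_anti (k := Sum.inl i) hl, add_mul, smul_mul_assoc, neg_mul, mul_assoc, h]
  simp

theorem spin_hw (S : Fin n → Prop) [DecidablePred S] (hS : ∀ i j, i < j → ¬S i) :
    HasHW fun i : Fin n => if S i then -1 / 2 else 1 / 2 := by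
  let κ : Fin n → Fin n ⊕ Fin n := fun i => if S i then Sum.inr i else Sum.inl i
  have inj : ∀ i j, Sum.elim id id (κ i) = j ↔ i = j := by
    intro i j
    by_cases h : S i <;> simp [κ, h]
  let L := List.ofFn κ
  have nd : L.Nodup := by
    refine List.nodup_ofFn.mpr fun i j h => (inj i j).mp ?_
    rw [h]
    exact (inj j j).mpr rfl
  have kill : ∀ i, cb (κ i) * mon L = 0 := by
    intro i
    refine cb_kill ?_ (List.mem_ofFn.mpr ⟨i, rfl⟩)
    intro h
    obtain ⟨j, hj⟩ := List.mem_ofFn.mp h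
    by_cases h1 : S i <;> by_cases h2 : S j <;> simp [κ, h1, h2] at hj <;> subst hj <;> contradiction
  refine ⟨Cl n, inferInstance, inferInstance, lm n, inferInstance, fun φ x => ?_, mon L, mon_ne nd,
    fun i => ?_, fun i j h t => ?_⟩
  · exact reg_lin (φ ∘ₗ LinearMap.mulRight ℂ x)
  · have k := kill i
    by_cases h : S i
    · simp only [κ, if_pos h] at k
      refine ⟨-1, by simp only [if_pos h]; norm_num, fun s => ?_⟩
      have := left_of k
      simp only [Sum.swap_inr] at this
      rw [lm_apply, tor_coe, add_mul, smul_mul_assoc, smul_mul_assoc, this.1, this.2]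
      simp
    · simp only [κ, if_neg h] at k
      refine ⟨1, by simp only [if_neg h]; norm_num, fun s => ?_⟩
      have := left_of k
      simp only [Sum.swap_inl] at this
      rw [lm_apply, tor_coe, add_mul, smul_mul_assoc, smul_mul_assoc, this.1, this.2]
      simp
  · have k := kill i
    simp only [κ, if_neg (hS i j h)] at k
    exact ⟨root_kill (l := Sum.inr j) (by simpa using h.ne) k t,
      root_kill (l := Sum.inl j) (by simp) k t⟩

theorem exs : EXS := by
  intro n
  refine ⟨?_, spin_hw (fun i : Fin n => i.val + 1 = n) fun i j h => ?_⟩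
  · simpa using spin_hw (n := n) (fun _ => False) fun _ _ _ h => h
  · have := j.2
    have : i.val < j.val := h
    omega

/-- Conjugation. -/
noncomputable def cj (n : ℕ) : Representation ℂ (Spin n) (Cl n) where
  toFun g := LinearMap.mulRight ℂ (star (g : Cl n)) ∘ₗ LinearMap.mulLeft ℂ (g : Cl n)
  map_one' := by ext x; simp
  map_mul' g h := by ext x; simp [mul_assoc]

theorem cj_apply (g : Spin n) (x : Cl n) : cj n g x = (g : Cl n) * x * star (g : Cl n) := rfl

theorem cj_fix {g : Spin n} {x : Cl n} (h : (g : Cl n) * x = x * g) : cj n g x = x := by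
  rw [cj_apply, h, mul_assoc, spinGroup.mul_star_self_of_mem g.2, mul_one]

theorem star_pair (k l : Fin n ⊕ Fin n) : star (cb k * cb l) = cb l * cb k := by
  rw [star_mul, star_ι, star_ι, neg_mul_neg]

theorem reg_star (ψ : Cl n →ₗ[ℂ] ℂ) : (fun g : Spin n => ψ (star (g : Cl n))) ∈ Regular n := by
  have := reg_lin (ψ ∘ₗ reverse ∘ₗ (involute (Q := Qs n)).toLinearMap)
  simp only [LinearMap.comp_apply, AlgHom.toLinearMap_apply, ← star_def] at this
  exact this

theorem cj_rat : IsRational (cj n) := by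
  intro φ x
  have := reg_bil ((LinearMap.mul ℂ (Cl n)).compr₂ φ) (a := fun g : Spin n => (g : Cl n) * x)
    (c := fun g : Spin n => star (g : Cl n))
    (fun ψ => by simpa using reg_lin (ψ ∘ₗ LinearMap.mulRight ℂ x)) reg_star
  simp only [LinearMap.compr₂_apply, LinearMap.mul_apply'] at this
  simp only [cj_apply]
  exact this

theorem exw : EXW := by
  intro n k
  let L : List (Fin n ⊕ Fin n) := ((List.finRange n).filter fun i => i.val < k).map Sum.inl
  have nd : L.Nodup := ((List.nodup_finRange n).filter _).map Sum.inl_injective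
  have m1 : ∀ i : Fin n, Sum.inl i ∈ L ↔ i.val < k := fun i => by simp [L]
  have m2 : ∀ i : Fin n, Sum.inr i ∉ L := fun i => by simp [L]
  have root : ∀ (i : Fin n) (l : Fin n ⊕ Fin n) (g : Spin n) (t : ℂ), Sum.inr i ≠ l →
      (¬i.val < k → l.swap ∉ L) → (g : Cl n) = 1 + t • (cb (Sum.inl i) * cb l) →
      cj n g (mon L) = mon L := by
    intro i l g t hl h hg
    apply cj_fix
    rw [hg]
    by_cases hi : i.val < k
    · rw [root_kill hl (cb_kill (k := Sum.inl i) (m2 i) ((m1 i).mpr hi)), mul_add, mul_smul_comm,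
        ← mul_assoc, kill_cb (k := Sum.inl i) (m2 i) ((m1 i).mpr hi)]
      simp
    · rw [add_mul, mul_add, smul_mul_assoc, mul_smul_comm,
        pair_comm (k := Sum.inl i) (m2 i) (h hi), one_mul, mul_one]
  refine ⟨Cl n, inferInstance, inferInstance, cj n, inferInstance, cj_rat, mon L, mon_ne nd,
    fun i => ?_, fun i j h t => ?_⟩
  · by_cases h : i.val < k
    · refine ⟨2, by simp only [if_pos h]; norm_num, fun s => ?_⟩
      have a := left_of (cb_kill (k := Sum.inl i) (m2 i) ((m1 i).mpr h))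
      have b := right_of (kill_cb (k := Sum.inl i) (m2 i) ((m1 i).mpr h))
      simp only [Sum.swap_inl] at a b
      rw [cj_apply, tor_coe, star_add, CliffordAlgebra.star_smul, CliffordAlgebra.star_smul,
        star_pair, star_pair, add_mul, smul_mul_assoc, smul_mul_assoc, a.1, a.2, smul_zero,
        add_zero, smul_mul_assoc, mul_add, mul_smul_comm, mul_smul_comm, b.1, b.2, smul_zero,
        add_zero, smul_smul, zpow_two]
    · refine ⟨0, by simp only [if_neg h]; norm_num, fun s => ?_⟩
      have h1 : (Sum.inr i : Fin n ⊕ Fin n).swap ∉ L := fun h' => h ((m1 i).mp h')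
      rw [zpow_zero, one_smul]
      apply cj_fix
      rw [tor_coe, add_mul, mul_add, smul_mul_assoc, smul_mul_assoc, mul_smul_comm, mul_smul_comm,
        pair_comm (k := Sum.inl i) (m2 i) h1, pair_comm (l := Sum.inl i) h1 (m2 i)]
  · have hij : i.val < j.val := h
    exact ⟨root i (Sum.inr j) _ t (by simpa using h.ne)
        (fun hi h' => hi (hij.trans ((m1 j).mp h'))) rfl,
      root i (Sum.inl j) _ t (by simp) (fun _ => m2 j) rfl⟩

end Vale.Agent.P182G10
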