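import Vale.Agent.P182G84.Fin
import Mathlib.LinearAlgebra.Dual.Lemmas
import Mathlib.RingTheory.TensorProduct.Finite

/-!
# P182G: tensor products and irreducible subquotients
-/

namespace Vale.Agent.P182G10

open Vale.Agent.P182G
open scoped TensorProduct

variable {n : ℕ}

theorem reg_const (c : ℂ) : (fun _ : Spin n => c) ∈ Regular n :=
  (Regular n).algebraMap_mem c

theorem reg_lin (l : Cl n →ₗ[ℂ] ℂ) : (fun g : Spin n => l g) ∈ Regular n :=
  Algebra.subset_adjoin ⟨l, rfl⟩

theorem reg_bil {V W : Type*} [AddCommGroup V] [Module ℂ V] [FiniteDimensional ℂ V]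
    [AddCommGroup W] [Module ℂ W] (B : V →ₗ[ℂ] W →ₗ[ℂ] ℂ) {a : Spin n → V} {c : Spin n → W}
    (ha : ∀ φ : V →ₗ[ℂ] ℂ, (fun g => φ (a g)) ∈ Regular n)
    (hc : ∀ ψ : W →ₗ[ℂ] ℂ, (fun g => ψ (c g)) ∈ Regular n) :
    (fun g => B (a g) (c g)) ∈ Regular n := by
  let b := Module.finBasis ℂ V
  have e : (fun g => B (a g) (c g)) =
      ∑ i, (fun g => b.coord i (a g)) * fun g => B (b i) (c g) := by
    funext g
    conv_lhs => rw [← b.sum_repr (a g), map_sum, LinearMap.sum_apply]
    simp only [map_smul, LinearMap.smul_apply, smul_eq_mul, Finset.sum_apply, Pi.mul_apply,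
      Module.Basis.coord_apply]
  rw [e]
  exact Subalgebra.sum_mem _ fun i _ => Subalgebra.mul_mem _ (ha _) (hc _)

theorem tmul_ne {V W : Type*} [AddCommGroup V] [Module ℂ V] [AddCommGroup W] [Module ℂ W]
    {v : V} {w : W} (hv : v ≠ 0) (hw : w ≠ 0) : v ⊗ₜ[ℂ] w ≠ 0 := by
  obtain ⟨φ, hφ⟩ := Module.Projective.exists_dual_eq_one ℂ hv
  intro h
  have := congrArg (fun x => TensorProduct.lid ℂ W (TensorProduct.map φ LinearMap.id x)) h
  simp [hφ] at this
  exact hw this

theorem ext : EXT := by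
  rintro n lam mu ⟨V, _, _, ρ, fV, rV, v, v0, hv, kv⟩ ⟨W, _, _, σ, fW, rW, w, w0, hw, kw⟩
  refine ⟨V ⊗[ℂ] W, inferInstance, inferInstance, ρ.tprod σ, inferInstance, ?_,
    v ⊗ₜ w, tmul_ne v0 w0, ?_, ?_⟩
  · intro φ x
    induction x using TensorProduct.induction_on with
    | zero => simpa using reg_const 0
    | tmul x y =>
      exact reg_bil ((TensorProduct.mk ℂ V W).compr₂ φ) (fun ψ => rV ψ x) fun ψ => rW ψ y
    | add x y hx hy =>
      simp only [map_add]
      exact (Regular n).add_mem hx hy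
  · intro i
    obtain ⟨k, hk, h1⟩ := hv i
    obtain ⟨l, hl, h2⟩ := hw i
    refine ⟨k + l, by rw [Int.cast_add, hk, hl, Pi.add_apply, mul_add], fun s => ?_⟩
    rw [Representation.tprod_apply, TensorProduct.map_tmul, h1, h2, TensorProduct.smul_tmul_smul,
      zpow_add₀ s.ne_zero]
  · intro i j h t
    simp only [Representation.tprod_apply, TensorProduct.map_tmul, (kv i j h t).1, (kv i j h t).2,
      (kw i j h t).1, (kw i j h t).2, and_self]

theorem exq_aux (lam : Fin n → ℚ) (d : ℕ) : ∀ (V : Type) [AddCommGroup V] [Module ℂ V]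
    (ρ : Representation ℂ (Spin n) V), Module.finrank ℂ V = d → FiniteDimensional ℂ V →
    IsRational ρ → IsHighest lam ρ →
    ∃ (V : Type) (_ : AddCommGroup V) (_ : Module ℂ V) (ρ : Representation ℂ (Spin n) V),
      IsV lam ρ := by
  induction d using Nat.strong_induction_on with
  | _ d ih =>
  intro V _ _ ρ hd fV rV hV
  by_cases hi : ρ.IsIrreducible
  · exact ⟨V, inferInstance, inferInstance, ρ, fV, rV, hi, hV⟩
  obtain ⟨v, v0, hv, kv⟩ := hV
  have hnt : Nontrivial (Subrepresentation ρ) := by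
    refine ⟨⊥, ⊤, fun h => v0 ?_⟩
    have h1 : v ∈ (⊤ : Subrepresentation ρ).toSubmodule := Submodule.mem_top
    rw [← h] at h1
    exact h1
  have : ∃ W : Subrepresentation ρ, W ≠ ⊥ ∧ W ≠ ⊤ := by
    by_contra hc
    push Not at hc
    exact hi ⟨fun W => (em (W = ⊥)).imp_right (hc W)⟩
  obtain ⟨W, Wb, Wt⟩ := this
  by_cases hW : v ∈ W.toSubmodule
  · have lt : Module.finrank ℂ W.toSubmodule < d := by
      rw [← hd]
      exact Submodule.finrank_lt fun h => Wt (Subrepresentation.toSubmodule_injective h)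
    refine ih _ lt W.toSubmodule W.toRepresentation rfl inferInstance ?_
      ⟨⟨v, hW⟩, fun h => v0 (congrArg Subtype.val h), fun i => ?_, fun i j h t => ?_⟩
    · intro φ x
      obtain ⟨ψ, hψ⟩ := LinearMap.exists_extend φ
      have e : (fun g => φ (W.toRepresentation g x)) = fun g => ψ (ρ g x) := by
        funext g
        rw [← hψ]
        rfl
      rw [e]
      exact rV ψ x
    · obtain ⟨k, hk, h1⟩ := hv i
      exact ⟨k, hk, fun s => Subtype.ext (h1 s)⟩
    · exact ⟨Subtype.ext (kv i j h t).1, Subtype.ext (kv i j h t).2⟩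
  · have lt : Module.finrank ℂ (V ⧸ W.toSubmodule) < d := by
      rw [← hd, ← W.toSubmodule.finrank_quotient_add_finrank]
      refine Nat.lt_add_of_pos_right (Nat.pos_of_ne_zero fun h => Wb ?_)
      exact Subrepresentation.toSubmodule_injective (Submodule.finrank_eq_zero.mp h)
    have le : ∀ g, W.toSubmodule ≤ W.toSubmodule.comap (ρ g) :=
      fun g x hx => W.apply_mem_toSubmodule g hx
    have q : ∀ g x, ρ.quotient W.toSubmodule le g (W.toSubmodule.mkQ x) =
        W.toSubmodule.mkQ (ρ g x) := fun g x => rfl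
    refine ih _ lt (V ⧸ W.toSubmodule) (ρ.quotient W.toSubmodule le) rfl inferInstance ?_
      ⟨W.toSubmodule.mkQ v, fun h => hW ((Submodule.Quotient.mk_eq_zero _).mp h), fun i => ?_,
        fun i j h t => ?_⟩
    · intro φ x
      obtain ⟨x, rfl⟩ := W.toSubmodule.mkQ_surjective x
      exact rV (φ ∘ₗ W.toSubmodule.mkQ) x
    · obtain ⟨k, hk, h1⟩ := hv i
      exact ⟨k, hk, fun s => by rw [q, h1, map_smul]⟩
    · exact ⟨by rw [q, (kv i j h t).1], by rw [q, (kv i j h t).2]⟩

theorem exq : EXQ := by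
  rintro n lam ⟨V, _, _, ρ, fV, rV, hV⟩
  exact exq_aux lam _ V ρ rfl fV rV hV

end Vale.Agent.P182G10
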