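import Vale.Agent.P182.H163.Defs
import Vale.Agent.P182G.Mem2
import Mathlib.RepresentationTheory.Irreducible
import Mathlib.RepresentationTheory.Invariants

/-!
# P182: the group `Spin(2n)` and its rational representations
-/

namespace Vale.Agent.P182S

open CliffordAlgebra

noncomputable section

/-- The split quadratic form `Σ x_i y_i` on `ℂ^(2n)`. -/
def Qs (n : ℕ) : QuadraticForm ℂ (Fin n ⊕ Fin n → ℂ) :=
  ∑ i : Fin n, QuadraticMap.proj (Sum.inl i) (Sum.inr i)

/-- Its Clifford algebra. -/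
abbrev Cl (n : ℕ) : Type := CliffordAlgebra (Qs n)

/-- The group `Spin(2n) = Spin(2n, ℂ)`. -/
abbrev Spin (n : ℕ) : Type := spinGroup (Qs n)

variable {n : ℕ}

/-- The isotropic vector `e_i`, of weight `ε_i`, in the Clifford algebra. -/
def e (i : Fin n) : Cl n := ι (Qs n) (Pi.single (Sum.inl i) 1)

/-- The isotropic vector `f_i`, of weight `-ε_i`, in the Clifford algebra. -/
def f (i : Fin n) : Cl n := ι (Qs n) (Pi.single (Sum.inr i) 1)

/-- `x` lies in the spin group. -/
def InSpin (x : Cl n) : Prop := x ∈ spinGroup (Qs n)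

/-- `x` as an element of the spin group. -/
def mk (x : Cl n) (h : InSpin x) : Spin n := ⟨x, h⟩

/-- The element `a x y + b y x` of the Clifford algebra. -/
def mix (a b : ℂ) (x y : Cl n) : Cl n := a • (x * y) + b • (y * x)

/-- The element `1 + t x y` of the Clifford algebra. -/
def unip (t : ℂ) (x y : Cl n) : Cl n := 1 + t • (x * y)

theorem tor_in (i : Fin n) (s : ℂˣ) : InSpin (mix s (s⁻¹ : ℂˣ) (e i) (f i)) :=
  P182G.tor_mem P182G.split_apply i s

theorem rootSub_in {i j : Fin n} (h : i < j) (t : ℂ) : InSpin (unip t (e i) (f j)) :=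
  P182G.root_mem P182G.split_apply h.ne (Or.inl rfl) (Or.inr rfl) t

theorem rootAdd_in {i j : Fin n} (h : i < j) (t : ℂ) : InSpin (unip t (e i) (e j)) :=
  P182G.root_mem P182G.split_apply h.ne (Or.inl rfl) (Or.inl rfl) t

/-- The element `s e_i f_i + s⁻¹ f_i e_i` of the maximal torus; it acts on `ℂ^(2n)` by
`e_i ↦ s² e_i`, `f_i ↦ s⁻² f_i`, so the character of weight `lam` takes it to `s ^ (2 lam_i)`. -/
def tor (i : Fin n) (s : ℂˣ) : Spin n := mk (mix s (s⁻¹ : ℂˣ) (e i) (f i)) (tor_in i s)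

/-- The element `1 + t e_i f_j` of the root subgroup of `ε_i - ε_j`. -/
def rootSub {i j : Fin n} (h : i < j) (t : ℂ) : Spin n := mk (unip t (e i) (f j)) (rootSub_in h t)

/-- The element `1 + t e_i e_j` of the root subgroup of `ε_i + ε_j`. -/
def rootAdd {i j : Fin n} (h : i < j) (t : ℂ) : Spin n := mk (unip t (e i) (e j)) (rootAdd_in h t)

/-- The regular functions on `Spin(2n)`: polynomials in the linear coordinates of the Clifford
algebra. -/
def Regular (n : ℕ) : Subalgebra ℂ (Spin n → ℂ) :=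
  Algebra.adjoin ℂ {F | ∃ l : Cl n →ₗ[ℂ] ℂ, F = fun g : Spin n => l g}

variable {V : Type*} [AddCommGroup V] [Module ℂ V]

/-- Rational (algebraic) representations: the matrix coefficients are regular functions. -/
def IsRational (ρ : Representation ℂ (Spin n) V) : Prop :=
  ∀ (φ : V →ₗ[ℂ] ℂ) (v : V), (fun g => φ (ρ g v)) ∈ Regular n

/-- `ρ` has a highest weight vector of weight `lam = Σ lam_i ε_i`: the torus acts on it by the
character `lam`, and the positive root subgroups fix it. -/
def IsHighest (lam : Fin n → ℚ) (ρ : Representation ℂ (Spin n) V) : Prop :=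
  ∃ v : V, v ≠ 0 ∧ (∀ i, ∃ k : ℤ, (k : ℚ) = 2 * lam i ∧ ∀ s, ρ (tor i s) v = (s : ℂ) ^ k • v) ∧
    ∀ i j (h : i < j) t, ρ (rootSub h t) v = v ∧ ρ (rootAdd h t) v = v

/-- `ρ` is `V(lam)`: a finite-dimensional irreducible rational representation of `Spin(2n)` with
highest weight `lam`. -/
def IsV (lam : Fin n → ℚ) (ρ : Representation ℂ (Spin n) V) : Prop :=
  FiniteDimensional ℂ V ∧ IsRational ρ ∧ ρ.IsIrreducible ∧ IsHighest lam ρ

end

end Vale.Agent.P182S
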