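import Vale.Agent.P182G84.Top
import Vale.Agent.P182.H55.AllM
import Vale.Agent.P182.H810.GlueAll

/-!
# P182: the saturation property of the groups `Spin(2n)`

`Spin n` is the spin group of the split quadratic form on `ℂ^(2n)`, and `IsV lam ρ` says that `ρ`
is a finite-dimensional irreducible rational representation of it with highest weight `lam`.
For `n ≥ 2` such a representation exists for each dominant weight and is unique up to isomorphism,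
and for dominant `lam`, `mu`, `nu` with sum in the root lattice, a nonzero invariant of the group in
`V(N lam) ⊗ V(N mu) ⊗ V(N nu)` for one `N ≥ 1` gives one in `V(M lam) ⊗ V(M mu) ⊗ V(M nu)` for
every `M ≥ 1`, in particular for `M = 1`.
-/

namespace Vale.Agent.P182G10

open Vale.Agent.P182 Vale.Agent.P182G

universe u₁ u₂ u₃ u₄ u₅ u₆

/-- **The group `Spin(2n)` has the saturation property for every `n ≥ 2`.** -/
theorem main : ∀ n : ℕ, 2 ≤ n →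
    (∀ lam : Fin n → ℚ, IsDominant lam →
      (∃ (V : Type) (_ : AddCommGroup V) (_ : Module ℂ V) (ρ : Representation ℂ (Spin n) V),
        IsV lam ρ) ∧
      ∀ (V : Type u₁) (W : Type u₂) [AddCommGroup V] [Module ℂ V] [AddCommGroup W] [Module ℂ W]
        (ρ : Representation ℂ (Spin n) V) (σ : Representation ℂ (Spin n) W),
        IsV lam ρ → IsV lam σ → Nonempty (ρ.Equiv σ)) ∧
    ∀ lam mu nu : Fin n → ℚ, IsDominant lam → IsDominant mu → IsDominant nu →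
      InRootLattice (lam + mu + nu) → ∀ N M : ℕ, 1 ≤ N → 1 ≤ M →
      ∀ (W₁ : Type u₁) (W₂ : Type u₂) (W₃ : Type u₃) (V₁ : Type u₄) (V₂ : Type u₅) (V₃ : Type u₆)
      [AddCommGroup W₁] [Module ℂ W₁] [AddCommGroup W₂] [Module ℂ W₂] [AddCommGroup W₃]
      [Module ℂ W₃] [AddCommGroup V₁] [Module ℂ V₁] [AddCommGroup V₂] [Module ℂ V₂]
      [AddCommGroup V₃] [Module ℂ V₃]
      (σ₁ : Representation ℂ (Spin n) W₁) (σ₂ : Representation ℂ (Spin n) W₂)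
      (σ₃ : Representation ℂ (Spin n) W₃) (ρ₁ : Representation ℂ (Spin n) V₁)
      (ρ₂ : Representation ℂ (Spin n) V₂) (ρ₃ : Representation ℂ (Spin n) V₃),
      IsV (fun i => N * lam i) σ₁ → IsV (fun i => N * mu i) σ₂ → IsV (fun i => N * nu i) σ₃ →
      IsV (fun i => M * lam i) ρ₁ → IsV (fun i => M * mu i) ρ₂ → IsV (fun i => M * nu i) ρ₃ →
      (σ₁.tprod (σ₂.tprod σ₃)).invariants ≠ ⊥ → (ρ₁.tprod (ρ₂.tprod ρ₃)).invariants ≠ ⊥ := by
  intro n hn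
  refine ⟨fun lam hl => ⟨exists_V hl, fun _ _ _ _ _ _ _ _ h h' => uniq hn h h'⟩, ?_⟩
  intro lam mu nu hlam hmu hnu hQ N M hN hM W₁ W₂ W₃ V₁ V₂ V₃ _ _ _ _ _ _ _ _ _ _ _ _
    σ₁ σ₂ σ₃ ρ₁ ρ₂ ρ₃ s₁ s₂ s₃ r₁ r₂ r₃ h
  obtain ⟨_, _, _, _, a₁, hW₁⟩ := s₁.lie hn
  obtain ⟨_, _, _, _, a₂, hW₂⟩ := s₂.lie hn
  obtain ⟨_, _, _, _, a₃, hW₃⟩ := s₃.lie hn
  obtain ⟨_, _, _, _, b₁, hV₁⟩ := r₁.lie hn
  obtain ⟨_, _, _, _, b₂, hV₂⟩ := r₂.lie hn
  obtain ⟨_, _, _, _, b₃, hV₃⟩ := r₃.lie hn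
  exact (inv_iff hn b₁ b₂ b₃).2 (H55.allMultiples_of_glueAll H810.glueAll' hn hlam hmu hnu hQ hN hM
    hW₁ hW₂ hW₃ hV₁ hV₂ hV₃ ((inv_iff hn a₁ a₂ a₃).1 h))

end Vale.Agent.P182G10
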